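import Vale.Agent.P092UB.Hs

/-!
P092, rank one, block LIM (helper44): the Parseval identity for vector valued functions.
-/

set_option linter.all false

open scoped InnerProductSpace ENNReal NNReal ComplexConjugate
open Filter Topology MeasureTheory Set

namespace Vale.Agent.P092LM

open Vale.Agent.P092UB Vale.Agent.P092CP

variable {Ξ V K ι : Type} [MeasurableSpace Ξ] {m : Measure Ξ} [NormedAddCommGroup V]
  [NormedSpace ℂ V] [CompleteSpace V] [NormedAddCommGroup K] [InnerProductSpace ℂ K]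

theorem parsC (e : HilbertBasis ι ℂ K) (p : K) : ∑' i, ‖⟪e i, p⟫_ℂ‖ₑ ^ 2 = ‖p‖ₑ ^ 2 := by
  have h := Complex.hasSum_re (e.hasSum_inner_mul_inner p p)
  have h1 : ∀ i, (⟪p, e i⟫_ℂ * ⟪e i, p⟫_ℂ).re = ‖⟪e i, p⟫_ℂ‖ ^ 2 := fun i => by
    rw [← inner_conj_symm p, Complex.conj_mul', ← Complex.ofReal_pow, Complex.ofReal_re]
  have h2 : (⟪p, p⟫_ℂ).re = ‖p‖ ^ 2 := inner_self_eq_norm_sq (𝕜 := ℂ) p
  simp only [h1, h2] at h
  rw [tsum_enorm_sq h.summable, h.tsum_eq, enorm_sq_eq]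

variable [CompleteSpace K]

theorem exists_cb (K : Type) [NormedAddCommGroup K] [InnerProductSpace ℂ K] [CompleteSpace K]
    [SecondCountableTopology K] :
    ∃ (κ : Type) (_ : Countable κ), Nonempty (HilbertBasis κ ℂ K) := by
  obtain ⟨w, b, -⟩ := exists_hilbertBasis ℂ K
  let _ := InnerProductSpace.complexToReal (G := K)
  exact ⟨w, countable_of_on (v := b) ⟨b.orthonormal.1, fun i j hij =>
    (congrArg Complex.re (b.orthonormal.2 hij)).trans Complex.zero_re⟩, ⟨b⟩⟩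

/-- bounded measurable families -/
structure BS (m : Measure Ξ) (T : Ξ → V) (b : ℝ) : Prop where
  meas : AEStronglyMeasurable T m
  bdd : ∀ᵐ ξ ∂m, ‖T ξ‖ ≤ b

/-- the coefficient of a family -/
noncomputable def cf (g : Lp ℂ 2 m) (T : Ξ → V) : V := ∫ ξ, conj (g ξ) • T ξ ∂m

variable [IsFiniteMeasure m] {T : Ξ → V} {b : ℝ}

theorem BS.dom (hT : BS m T b) (g : Lp ℂ 2 m) : ∀ᵐ ξ ∂m, ‖conj (g ξ) • T ξ‖ ≤ ‖g ξ‖ * b :=
  hT.bdd.mono fun ξ h => by
    rw [norm_smul, Complex.norm_conj]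
    exact mul_le_mul_of_nonneg_left h (norm_nonneg _)

theorem BS.ms (hT : BS m T b) (g : Lp ℂ 2 m) :
    AEStronglyMeasurable (fun ξ => conj (g ξ) • T ξ) m :=
  (Complex.continuous_conj.comp_aestronglyMeasurable (Lp.aestronglyMeasurable g)).smul hT.meas

theorem int_g (g : Lp ℂ 2 m) (b : ℝ) : Integrable (fun ξ => ‖g ξ‖ * b) m :=
  ((Lp.memLp g).integrable one_le_two).norm.mul_const b

theorem BS.clm (hT : BS m T b) (g : Lp ℂ 2 m) (L : V →L[ℂ] ℂ) :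
    L (cf g T) = ∫ ξ, conj (g ξ) * L (T ξ) ∂m := by
  rw [cf, ← L.integral_comp_comm ((int_g g b).mono' (hT.ms g) (hT.dom g))]
  simp only [map_smul, smul_eq_mul]

theorem tendsto_cf {S : ℕ → Ξ → V} (hS : ∀ j, BS m (S j) b)
    (h : ∀ ξ, Tendsto (fun j => S j ξ) atTop (𝓝 (T ξ))) (g : Lp ℂ 2 m) :
    Tendsto (fun j => cf g (S j)) atTop (𝓝 (cf g T)) :=
  tendsto_integral_of_dominated_convergence _ (fun j => (hS j).ms g) (int_g g b)
    (fun j => (hS j).dom g) (ae_of_all _ fun ξ => (h ξ).const_smul _)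

/-- **Parseval** -/
theorem BS.pars [SecondCountableTopology K] (hT : BS m T b) (e : HilbertBasis ι ℂ (Lp ℂ 2 m))
    (Z : V →L[ℂ] K) : ∫⁻ ξ, ‖Z (T ξ)‖ₑ ^ 2 ∂m = ∑' i, ‖Z (cf (e i) T)‖ₑ ^ 2 := by
  obtain ⟨κ, _, ⟨f⟩⟩ := exists_cb K
  have h1 : ∀ k, MemLp (fun ξ => (innerSL ℂ (f k) ∘L Z) (T ξ)) 2 m := fun k =>
    MemLp.of_bound ((innerSL ℂ (f k) ∘L Z).continuous.comp_aestronglyMeasurable hT.meas) _
      (hT.bdd.mono fun ξ h => (innerSL ℂ (f k) ∘L Z).le_opNorm_of_le h)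
  simp only [← parsC f]
  refine (lintegral_tsum fun k => (h1 k).1.enorm.pow_const 2).trans ?_
  rw [ENNReal.tsum_comm]
  refine tsum_congr fun k => ?_
  have h2 := enorm_sq ((h1 k).toLp _)
  rw [← parsC e, lintegral_congr_ae ((h1 k).coeFn_toLp.mono fun ξ h => by rw [h])] at h2
  refine h2.symm.trans (tsum_congr fun i => ?_)
  congr 2
  refine Eq.trans ?_ (hT.clm (e i) (innerSL ℂ (f k) ∘L Z)).symm
  rw [L2.inner_def]
  exact integral_congr_ae ((h1 k).coeFn_toLp.mono fun ξ h => by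
    simp only [h, RCLike.inner_apply'])

omit [IsFiniteMeasure m] in
/-- extension by zero -/
theorem exists_ez {A : Set Ξ} (hA : MeasurableSet A) :
    ∃ E : Lp ℂ 2 (m.restrict A) → Lp ℂ 2 m, (∀ g g', ⟪E g, E g'⟫_ℂ = ⟪g, g'⟫_ℂ) ∧
      ∀ g (F : Ξ → ℂ), ∫ ξ, conj (E g ξ) * F ξ ∂m = ∫ ξ in A, conj (g ξ) * F ξ ∂m := by
  have h1 := fun g : Lp ℂ 2 (m.restrict A) => (memLp_indicator_iff_restrict hA).2 (Lp.memLp g)
  have h2 : ∀ (g : Lp ℂ 2 (m.restrict A)) (F : Ξ → ℂ), ∫ ξ, conj ((h1 g).toLp _ ξ) * F ξ ∂m =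
      ∫ ξ in A, conj (g ξ) * F ξ ∂m := fun g F => by
    rw [← integral_indicator hA]
    refine integral_congr_ae ((h1 g).coeFn_toLp.mono fun ξ h => ?_)
    by_cases hξ : ξ ∈ A <;> simp [h, hξ]
  refine ⟨fun g => (h1 g).toLp _, fun g g' => ?_, h2⟩
  simp only [L2.inner_def, RCLike.inner_apply']
  rw [h2]
  refine integral_congr_ae ?_
  filter_upwards [ae_restrict_of_ae (h1 g').coeFn_toLp, ae_restrict_mem hA] with ξ e1 e2
  rw [e1, indicator_of_mem e2]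

omit [IsFiniteMeasure m] in
theorem exh [TopologicalSpace Ξ] [SigmaCompactSpace Ξ] {F : Ξ → ℝ≥0∞} {c : ℝ≥0∞}
    (h : ∀ A, IsCompact A → ∫⁻ ξ in A, F ξ ∂m ≤ c) : ∫⁻ ξ, F ξ ∂m ≤ c := by
  rw [← setLIntegral_univ, ← iUnion_compactCovering Ξ, setLIntegral_iUnion_of_directed _
    (Monotone.directed_le (compactCovering_subset Ξ))]
  exact iSup_le fun j => h _ (isCompact_compactCovering Ξ j)

omit [IsFiniteMeasure m] in
theorem exists_bs [TopologicalSpace Ξ] [T2Space Ξ] [SecondCountableTopology Ξ] [BorelSpace Ξ]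
    {S : ℝ → Ξ → V} (hS : Continuous fun q : ℝ × Ξ => S q.1 q.2) {A : Set Ξ} (hA : IsCompact A) :
    ∃ b, ∀ t ∈ Icc (0 : ℝ) 1, BS (m.restrict A) (S t) b := by
  obtain ⟨b, hb⟩ := (isCompact_Icc.prod hA).exists_bound_of_continuousOn
    (s := Icc (0 : ℝ) 1 ×ˢ A) hS.continuousOn
  exact ⟨b, fun t ht => ⟨(hS.comp (Continuous.prodMk_right t)).aestronglyMeasurable,
    (ae_restrict_mem hA.measurableSet).mono fun ξ hξ => hb (t, ξ) ⟨ht, hξ⟩⟩⟩

end Vale.Agent.P092LM
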