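import Vale.Agent.P092LM.Pt
import Vale.Agent.P092LM.Pars
import Vale.Agent.P092RL.Op
import Vale.Agent.P092RK.Sint

/-!
P092, rank one, block LIM (helper44): averaged Poisson transforms, windows.
-/

set_option linter.all false

open scoped InnerProductSpace ENNReal NNReal ComplexConjugate
open Filter Topology MeasureTheory Set ContinuousLinearMap

namespace Vale.Agent.P092LM

open Vale.Agent.P092.H793.Re Vale.Agent.P092RG Vale.Agent.P092UB Vale.Agent.P092CP
  Vale.Agent.P092RS Vale.Agent.P092RK Vale.Agent.P092RL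
open Vale.Agent.P092.RC (Cm)

variable {n' : ℕ} {G G' K : Type} [Group G] [TopologicalSpace G] [IsTopologicalGroup G]
  [LocallyCompactSpace G] [SecondCountableTopology G] [T2Space G] [MeasurableSpace G]
  [BorelSpace G] [Group G'] [TopologicalSpace G'] [IsTopologicalGroup G']
  [LocallyCompactSpace G'] [SecondCountableTopology G'] [T2Space G'] [MeasurableSpace G']
  [BorelSpace G'] [NormedAddCommGroup K] [InnerProductSpace ℂ K] [CompleteSpace K]
  {ρ' : G' →* SLn n'} {w' : Fin n' → ℝ} {μ : Measure G} {μ' : Measure G'} [μ.IsHaarMeasure]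
  [μ'.IsHaarMeasure] {W : Set (K →L[ℂ] K)}

section av

variable (C : Cpl μ μ' W) (ν : Measure G) [IsProbabilityMeasure ν] {x : K →L[ℂ] K}

theorem sf (x : K →L[ℂ] K) : Sf ν fun g => sg C g x :=
  ⟨fun ξ => (C.s.cont_conj x ξ).aestronglyMeasurable, ‖x‖, fun g => C.s.norm_conj_le g x⟩

/-- the average over the source -/
noncomputable def Av : (K →L[ℂ] K) →ₗ[ℂ] (K →L[ℂ] K) where
  toFun x := sI ν fun g => sg C g x
  map_add' x y := by
    ext ξ
    rw [add_apply, (sf C ν _).sI_apply, (sf C ν _).sI_apply, (sf C ν _).sI_apply,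
      ← integral_add ((sf C ν _).int ξ) ((sf C ν _).int ξ)]
    simp only [sg, mul_add, add_mul, add_apply]
  map_smul' c x := by
    ext ξ
    rw [RingHom.id_apply, smul_apply, (sf C ν _).sI_apply, (sf C ν _).sI_apply, ← integral_smul]
    simp only [sg, mul_smul_comm, smul_mul_assoc, smul_apply]

theorem Av_def (x : K →L[ℂ] K) : Av C ν x = sI ν fun g => sg C g x := rfl

theorem Av_m (f : G' → ℂ) (ξ : K) : Av C ν (C.t.m f) ξ = Ev C ν f ξ := (sf C ν _).sI_apply ξ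

theorem norm_Av (x : K →L[ℂ] K) : ‖Av C ν x‖ ≤ ‖x‖ :=
  ((sf C ν x).norm_sI (norm_nonneg x) fun g => C.s.norm_conj_le g x).trans_eq
    (by rw [probReal_univ, mul_one])

theorem cm_Av (hx : Cm W x) : Cm W (Av C ν x) := fun u hu => by
  rw [Av_def, ← one_mul (sI _ _), (sf C ν x).mul_sI, one_mul, ← mul_one (u * _), (sf C ν x).mul_sI]
  congr 1
  funext g
  rw [one_mul, mul_one, C.s.conj x hx g u hu]

theorem ad_Av (y : G') (x : K →L[ℂ] K) : ad C.t.π y (Av C ν x) = Av C ν (ad C.t.π y x) := by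
  rw [ad, Av_def, (sf C ν x).mul_sI, Av_def]
  congr 1
  funext g
  simp only [ad, sg, mul_assoc, C.comm]
  simp only [← mul_assoc, C.comm]

theorem cp_Av {Y : Type} [TopologicalSpace Y] [CompactSpace Y] {Ψ : C(Y, ℂ) →ₗ[ℂ] (K →L[ℂ] K)}
    (h : P092EN.Cp Ψ) : P092EN.Cp (Av C ν ∘ₗ Ψ) where
  adj f := by
    have e : ∀ g, star (sg C g (Ψ f)) = sg C g (Ψ (star f)) := fun g => by
      rw [star_eq_adjoint, C.s.conj_adj, h.adj]
    rw [LinearMap.comp_apply, LinearMap.comp_apply, Av_def, Av_def, ← star_eq_adjoint,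
      (sf C ν _).star_sI (by simp only [e]; exact sf C ν _)]
    simp only [e]
  cp N f ζ := by
    have h1 : ∀ i j, Integrable (fun g => ⟪ζ i, sg C g (Ψ (star (f i) * f j)) (ζ j)⟫_ℂ) ν :=
      fun i j => ((sf C ν _).int _).const_inner _
    simp only [LinearMap.comp_apply, Av_def, (sf C ν _).inner_sI]
    simp only [← integral_finset_sum _ fun j _ => h1 _ j]
    have h2 := fun i => integrable_finset_sum Finset.univ fun j _ => h1 i j
    have h3 := integral_re (integrable_finset_sum Finset.univ fun i _ => h2 i)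
    rw [← integral_finset_sum _ fun i _ => h2 i]
    refine le_of_le_of_eq (integral_nonneg fun g => ?_) h3
    have h4 := h.cp N f fun i => C.s.π g⁻¹ (ζ i)
    refine h4.trans_eq (congrArg Complex.re ?_)
    refine Finset.sum_congr rfl fun i _ => Finset.sum_congr rfl fun j _ => ?_
    rw [← C.s.adj g, adjoint_inner_left, C.s.adj g]
    rfl

end av

section pois

variable (h' : R1 ρ' w') (S : Side μ' W) {t : ℝ} (ht : t ∈ Icc (0 : ℝ) 1)

/-- the Poisson transform in the position calculus -/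
noncomputable def mP : C(h'.Y, ℂ) →ₗ[ℂ] (K →L[ℂ] K) where
  toFun f := S.m (Pt h' t f)
  map_add' f g := by rw [Pt_add, S.m_add (bd_Pt h' ht f) (bd_Pt h' ht g)]
  map_smul' c f := by rw [Pt_smul, S.m_smul c (bd_Pt h' ht f), RingHom.id_apply]

theorem mP_apply (f : C(h'.Y, ℂ)) : mP h' S ht f = S.m (Pt h' t f) := rfl

theorem norm_mP (f : C(h'.Y, ℂ)) : ‖mP h' S ht f‖ ≤ ‖f‖ :=
  S.norm_m_le (meas_Pt h' t f) (norm_nonneg f) (norm_Pt h' ht f)

theorem ad_mP (x : G') (f : C(h'.Y, ℂ)) : ad S.π x (mP h' S ht f) = mP h' S ht (tw h' t x f) := by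
  rw [ad, mP_apply, mP_apply, S.cov (bd_Pt h' ht f)]
  exact congrArg S.m (funext fun y => (Pt_tw h' t x f y).symm)

theorem cp_mP : P092EN.Cp (mP h' S ht) where
  adj f := by rw [mP_apply, mP_apply, S.adjoint_m (bd_Pt h' ht f), Pt_star]
  cp N f ζ := by
    have h1 : ∀ i j, Integrable (fun y => Pt h' t (star (f i) * f j) y *
        ⟪S.U (ζ i) y, S.U (ζ j) y⟫_ℂ) μ' := fun i j =>
      (L2.integrable_inner _ _).bdd_mul (meas_Pt h' t _).aestronglyMeasurable
        (ae_of_all _ (norm_Pt h' ht _))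
    simp only [mP_apply, S.inner_m (bd_Pt h' ht _)]
    simp only [← integral_finset_sum _ fun j _ => h1 _ j]
    have h2 := fun i => integrable_finset_sum Finset.univ fun j _ => h1 i j
    have h3 := integral_re (integrable_finset_sum Finset.univ fun i _ => h2 i)
    rw [← integral_finset_sum _ fun i _ => h2 i]
    exact le_of_le_of_eq (integral_nonneg fun y => Pt_pos h' t y f _) h3

end pois

section win

variable (C : Cpl μ μ' W) {B : Set G'} (hB : MeasurableSet B)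

/-- the trace vector cut by a window -/
noncomputable def vw (B : Set G') (g : G') : K := C.t.π g (C.t.P B (C.t.π g⁻¹ C.t.Ω))

theorem cont_vw : Continuous (vw C B) :=
  cont_ap C.t continuous_id ((C.t.P B).continuous.comp ((C.t.cont _).comp continuous_inv))

theorem Tr_vw (X : K →L[ℂ] K) :
    C.t.Tr (X * C.t.P B) = ∫⁻ g, ‖ad C.t.π g X (vw C B g)‖ₑ ^ 2 ∂μ' := by
  have := C.t.inv
  rw [Side.Tr, ← lintegral_inv_eq_self]
  refine lintegral_congr fun g => ?_
  rw [ad, vw, mul_ap, mul_ap, mul_ap, C.t.enorm_π, ← mul_ap (C.t.π g⁻¹), pi_inv_mul]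
  rfl

include hB in
theorem lint_vw {X : K →L[ℂ] K} (hX : Cm W X) :
    ∫⁻ g, ‖X (vw C B g)‖ₑ ^ 2 ∂μ' = μ' B * ‖X C.t.Ω‖ₑ ^ 2 := by
  have h1 := Tr_win C hX C.t.mD hB
  have h2 : ∀ g, C.t.Tr (X * C.t.P ((fun y => g⁻¹ * y) ⁻¹' B ∩ C.t.D)) =
      μ' C.t.D * ‖X (vw C B g)‖ₑ ^ 2 := fun g => by
    have hm : MeasurableSet ((fun y => g⁻¹ * y) ⁻¹' B) := measurable_const_mul _ hB
    rw [← C.t.P_mul hm C.t.mD, ← mul_assoc, C.t.Tr_mul_PD (cm_mul hX (C.t.cm_P hm)), vw,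
      ← mul_ap (C.t.π g), C.t.π_P hB, mul_ap, mul_ap, ← mul_ap (C.t.π g), pi_mul_inv]
    rfl
  simp only [h2] at h1
  rw [lintegral_const_mul' _ _ C.t.vol, C.t.Tr_mul_PD hX, mul_left_comm] at h1
  exact ((ENNReal.mul_right_inj C.t.vol_ne C.t.vol).1 h1).symm

variable {Ξ V : Type} [TopologicalSpace Ξ] [SecondCountableTopology Ξ] [MeasurableSpace Ξ]
  [BorelSpace Ξ] {m : Measure Ξ} [NormedAddCommGroup V] [NormedSpace ℂ V] [CompleteSpace V]
  (D : V →L[ℂ] (K →L[ℂ] K)) (hD : ∀ f, Cm W (D f)) {T : Ξ → V}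

include hB hD in
/-- **from the trace vector to a window** -/
theorem window [SFinite m] (hT : Continuous T) {τ : G' → V → V} {e : V} {c a : ℝ≥0∞}
    (hc : c ≠ ∞) (ha : a ≠ ∞) (hτ : ∀ g f, ad C.t.π g (D f) = D (τ g f))
    (h : ∀ g (Z : V →L[ℂ] K), ∫⁻ ξ, ‖Z (τ g (T ξ))‖ₑ ^ 2 ∂m ≤
      c * (∫⁻ ξ, ‖Z (T ξ)‖ₑ ^ 2 ∂m + a * ‖Z e‖ₑ ^ 2)) :
    ∫⁻ ξ, C.t.Tr (D (T ξ) * C.t.P B) ∂m ≤
      c * (μ' B * (∫⁻ ξ, ‖D (T ξ) C.t.Ω‖ₑ ^ 2 ∂m + a * ‖D e C.t.Ω‖ₑ ^ 2)) := by
  have k1 : Continuous fun q : Ξ × G' => D (T q.1) := D.continuous.comp (hT.comp continuous_fst)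
  have k2 : Continuous fun q : Ξ × G' => vw C B q.2 := (cont_vw C).comp continuous_snd
  have m1 : Measurable fun q : Ξ × G' => ‖D (T q.1) (vw C B q.2)‖ₑ ^ 2 :=
    (k1.clm_apply k2).enorm.measurable.pow_const 2
  have m2 : Measurable fun q : Ξ × G' => ‖ad C.t.π q.2 (D (T q.1)) (vw C B q.2)‖ₑ ^ 2 :=
    (cont_ap C.t continuous_snd (k1.clm_apply
      (cont_ap C.t continuous_snd.inv k2))).enorm.measurable.pow_const 2
  simp only [Tr_vw]
  rw [lintegral_lintegral_swap m2.aemeasurable]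
  refine (lintegral_mono fun g => ?_ : _ ≤ ∫⁻ g, c * (∫⁻ ξ, ‖D (T ξ) (vw C B g)‖ₑ ^ 2 ∂m +
    a * ‖D e (vw C B g)‖ₑ ^ 2) ∂μ').trans (le_of_eq ?_)
  · simp only [hτ]
    exact h g ((ContinuousLinearMap.apply ℂ K (vw C B g)).comp D)
  rw [lintegral_const_mul' _ _ hc, lintegral_add_left m1.lintegral_prod_left',
    lintegral_const_mul' _ _ ha, lint_vw C hB (hD e), ← lintegral_lintegral_swap m1.aemeasurable]
  simp only [lint_vw C hB (hD _)]
  have m3 : Measurable fun ξ => ‖D (T ξ) C.t.Ω‖ₑ ^ 2 :=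
    ((D.continuous.comp hT).clm_apply continuous_const).enorm.measurable.pow_const 2
  rw [lintegral_const_mul _ m3, mul_add (μ' B), mul_left_comm a]

include hB hD in
/-- the trace as a double sum -/
theorem tr_pars [IsFiniteMeasure m] {b : ℝ} (hT : BS m T b) {ι : Type}
    (e : HilbertBasis ι ℂ (Lp ℂ 2 m)) : ∫⁻ ξ, C.t.Tr (D (T ξ) * C.t.P B) ∂m =
      μ' C.t.D * ∑' p : C.t.Γ × ι, ‖D (cf (e p.2) T) (C.t.P B (C.t.Om p.1))‖ₑ ^ 2 := by
  have := C.sep
  have := C.t.cnt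
  simp only [fun ξ => C.t.Tr_eq_tsum (cm_mul (hD (T ξ)) (C.t.cm_P hB))]
  rw [lintegral_const_mul' _ _ C.t.vol, ENNReal.tsum_prod']
  congr 1
  refine (lintegral_tsum fun γ => (((ContinuousLinearMap.apply ℂ K (C.t.P B (C.t.Om γ))).comp
    D).continuous.comp_aestronglyMeasurable hT.meas).enorm.pow_const 2).trans
    (tsum_congr fun γ => ?_)
  exact hT.pars e ((ContinuousLinearMap.apply ℂ K (C.t.P B (C.t.Om γ))).comp D)

end win

end Vale.Agent.P092LM
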