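import Vale.Agent.P092RL.Defs
import Vale.Agent.P092UB.Defs

/-!
P092, rank one, block LIM (helper44): what the limit `t → 0` needs from the system of tests.
-/

set_option linter.all false

open scoped InnerProductSpace ENNReal NNReal ComplexConjugate
open Filter Topology MeasureTheory Set

namespace Vale.Agent.P092LM

open Vale.Agent.P092.H793.Re Vale.Agent.P092RG Vale.Agent.P092UB

variable {n : ℕ} {G : Type} [Group G] [TopologicalSpace G] {ρ : G →* SLn n} {w : Fin n → ℝ}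

/-- the weight `exp (-t co(x⁻¹, ·))` -/
noncomputable def Ms (h : R1 ρ w) (t : ℝ) (x : G) : C(h.Y, ℂ) :=
  ⟨fun η => (Real.exp (-(t * h.co x⁻¹ η)) : ℝ), Complex.continuous_ofReal.comp
    (Real.continuous_exp.comp (continuous_const.mul
      (h.continuous_co.comp (continuous_const.prodMk continuous_id))).neg)⟩

/-- the twisted translation -/
noncomputable def tw (h : R1 ρ w) (t : ℝ) (x : G) (f : C(h.Y, ℂ)) : C(h.Y, ℂ) :=
  Ms h t x * f.comp ⟨fun η => x⁻¹ • η, continuous_const_smul _⟩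

variable [IsTopologicalGroup G] [SecondCountableTopology G] [MeasurableSpace G] [BorelSpace G]

/-- the twisted Poisson transform -/
noncomputable def Pt (h : R1 ρ w) (t : ℝ) (f : C(h.Y, ℂ)) (y : G) : ℂ :=
  ∫ k, (Real.exp (-(t * h.hs (y * k))) : ℝ) * f ((y * k : G) : h.Y) ∂h.νK

/-- **The output of A0**: the tests `T t`, uniform boundedness of the twisted translations for the
energy, and the orbit maps whose coordinates are the Poisson transforms of the tests. -/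
structure A0 (h : R1 ρ w) {Ξ : Type} [TopologicalSpace Ξ] [MeasurableSpace Ξ] (m : Measure Ξ)
    (T : ℝ → Ξ → C(h.Y, ℂ)) : Prop where
  cont : Continuous fun q : ℝ × Ξ => T q.1 q.2
  eq : ∃ c : ℝ≥0∞, c ≠ ∞ ∧ ∀ t ∈ Ioc (0 : ℝ) (1 / 4), ∀ (x : G) (H : Type) [NormedAddCommGroup H]
    [InnerProductSpace ℂ H] [CompleteSpace H] (Z : C(h.Y, ℂ) →L[ℂ] H),
    ∫⁻ ξ, ‖Z (tw h t x (T t ξ))‖ₑ ^ 2 ∂m ≤
      c * (∫⁻ ξ, ‖Z (T t ξ)‖ₑ ^ 2 ∂m + (ENNReal.ofReal t)⁻¹ * ‖Z 1‖ₑ ^ 2)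
  orb : ∃ (c : ℝ) (D : ℝ → ℝ) (Λ : ℝ), Monotone D ∧ ∀ t ∈ Ioc (0 : ℝ) (1 / 4),
    ∃ (O : Orb h.rr c D (Λ / √t)) (ι : Lp ℂ 2 m → O.H) (e : O.H),
      (∀ g g', ⟪ι g, ι g'⟫_ℝ = (⟪g, g'⟫_ℂ).re) ∧
      (∀ g y, ⟪ι g, O.F y⟫_ℝ = (∫ ξ, conj (g ξ) * Pt h t (T t ξ) y ∂m).re) ∧
      ‖e‖ = 1 ∧ ∀ y, √t * ⟪e, O.F y⟫_ℝ = (Pt h t 1 y).re

end Vale.Agent.P092LM
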