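import Vale.Agent.P092LM.Av

/-!
P092, rank one, block LIM (helper44): the boundary map of finite energy as a limit of averaged
Poisson transforms.
-/

set_option linter.all false

open scoped InnerProductSpace ENNReal NNReal ComplexConjugate
open Filter Topology MeasureTheory Set ContinuousLinearMap

namespace Vale.Agent.P092LM

open Vale.Agent.P092.H793.Re Vale.Agent.P092RG Vale.Agent.P092UB Vale.Agent.P092CP
  Vale.Agent.P092RS Vale.Agent.P092RK Vale.Agent.P092RL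
open Vale.Agent.P092.RC (Cm)
open Vale.Agent.P092.H494.PW (WLim exists_wlim_lin)

variable {n n' : ℕ} {G G' K : Type} [Group G] [TopologicalSpace G] [IsTopologicalGroup G]
  [LocallyCompactSpace G] [SecondCountableTopology G] [T2Space G] [MeasurableSpace G]
  [BorelSpace G] [Group G'] [TopologicalSpace G'] [IsTopologicalGroup G']
  [LocallyCompactSpace G'] [SecondCountableTopology G'] [T2Space G'] [MeasurableSpace G']
  [BorelSpace G'] [NormedAddCommGroup K] [InnerProductSpace ℂ K] [CompleteSpace K]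
  {ρ : G →* SLn n} {w : Fin n → ℝ} {ρ' : G' →* SLn n'} {w' : Fin n' → ℝ} {μ : Measure G}
  {μ' : Measure G'} [μ.IsHaarMeasure] [μ'.IsHaarMeasure] {W : Set (K →L[ℂ] K)}
  {h : R1 ρ w} {h' : R1 ρ' w'} {C : Cpl μ μ' W} {Ξ : Type} [TopologicalSpace Ξ] [T2Space Ξ]
  [SecondCountableTopology Ξ] [SigmaCompactSpace Ξ] [MeasurableSpace Ξ] [BorelSpace Ξ]
  {m : Measure Ξ} [IsFiniteMeasureOnCompacts m] {T : ℝ → Ξ → C(h'.Y, ℂ)}

section orb

variable {r : G' → ℝ} {c : ℝ} {D : ℝ → ℝ} {Λ : ℝ} (O : Orb r c D Λ) {t s : ℝ}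
  {L : (K →L[ℂ] K) →ₗ[ℂ] K} (hs : HSle (fun v => L (C.t.m (O.co v))) s)

theorem bd_co (v : O.H) : Bd (O.co v) :=
  Bd.ofReal (O.mF v) (C := ‖v‖ * Λ) fun y => (abs_real_inner_le_norm _ _).trans
    (mul_le_mul_of_nonneg_left (O.nF y) (norm_nonneg _))

include hs in
theorem hs_mass (ht : 0 ≤ t) {e : O.H} (he : ‖e‖ = 1)
    (h1 : ∀ y, √t * ⟪e, O.F y⟫_ℝ = (Pt h' t 1 y).re) :
    ‖L (C.t.m (Pt h' t 1))‖ₑ ^ 2 ≤ ENNReal.ofReal t * ENNReal.ofReal s ^ 2 := by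
  have e1 : Pt h' t 1 = ((√t : ℝ) : ℂ) • O.co e := funext fun y => by
    rw [← Pt_one, ← h1, Complex.ofReal_mul]; rfl
  rw [e1, C.t.m_smul _ (bd_co O e), map_smul, enorm_smul, mul_pow, enorm_sq_eq, Complex.norm_real,
    Real.norm_eq_abs, sq_abs, Real.sq_sqrt ht]
  exact mul_le_mul_right ((ENNReal.le_tsum ()).trans (hs Unit (fun _ => e)
    ⟨fun _ => he, fun i j hij => absurd (Subsingleton.elim i j) hij⟩)) _

include hs in
theorem hs_test (hT : Continuous fun q : ℝ × Ξ => T q.1 q.2) (ht : t ∈ Icc (0 : ℝ) 1)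
    {ι : Lp ℂ 2 m → O.H} (h1 : ∀ g g', ⟪ι g, ι g'⟫_ℝ = (⟪g, g'⟫_ℂ).re)
    (h2 : ∀ g y, ⟪ι g, O.F y⟫_ℝ = (∫ ξ, conj (g ξ) * Pt h' t (T t ξ) y ∂m).re)
    (Z : C(h'.Y, ℂ) →L[ℂ] K) (hZ : ∀ f, Z f = L (C.t.m (Pt h' t f))) :
    ∫⁻ ξ, ‖Z (T t ξ)‖ₑ ^ 2 ∂m ≤ 4 * ENNReal.ofReal s ^ 2 := by
  classical
  have := C.sep
  refine exh fun A hA => ?_
  have : IsFiniteMeasure (m.restrict A) := isFiniteMeasure_restrict.2 hA.measure_lt_top.ne
  obtain ⟨b, hb⟩ := exists_bs (m := m) hT hA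
  obtain ⟨I, e, -⟩ := exists_hilbertBasis ℂ (Lp ℂ 2 (m.restrict A))
  obtain ⟨E, E1, E2⟩ := exists_ez (m := m) hA.measurableSet
  have k1 : ∀ g y, ⟪ι (E g), O.F y⟫_ℝ = (Pt h' t (cf g (T t)) y).re := fun g y => by
    rw [h2, E2]
    exact congrArg Complex.re ((hb t ht).clm g (PtL h' t y)).symm
  have k2 : ∀ g : Lp ℂ 2 (m.restrict A), cf (Complex.I • g) (T t) = -Complex.I • cf g (T t) :=
    fun g => by
      rw [cf, cf, ← integral_smul]
      refine integral_congr_ae ((Lp.coeFn_smul Complex.I g).mono fun ξ hξ => ?_)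
      simp only [hξ, Pi.smul_apply, smul_eq_mul, map_mul, Complex.conj_I, mul_smul]
  have k3 : ∀ g, Pt h' t (cf g (T t)) =
      O.co (ι (E g)) + Complex.I • O.co (ι (E (Complex.I • g))) := fun g => funext fun y => by
    simp only [Pi.add_apply, Pi.smul_apply, Orb.co, k1, k2, Pt_smul, smul_eq_mul]
    apply Complex.ext <;> simp
  have k4 := orthonormal_iff_ite.1 e.orthonormal
  have o1 : Orthonormal ℝ fun i => ι (E (e i)) := orthonormal_iff_ite.2 fun i j => by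
    rw [h1, E1, k4]; split_ifs <;> rfl
  have o2 : Orthonormal ℝ fun i => ι (E (Complex.I • e i)) := orthonormal_iff_ite.2 fun i j => by
    rw [h1, E1, inner_smul_left, inner_smul_right, k4]; split_ifs <;> simp
  rw [(hb t ht).pars e Z, show (4 : ℝ≥0∞) = 2 + 2 by norm_num, add_mul]
  refine le_trans ?_ (add_le_add (mul_le_mul_right (hs _ _ o1) 2) (mul_le_mul_right (hs _ _ o2) 2))
  rw [← ENNReal.tsum_mul_left, ← ENNReal.tsum_mul_left, ← ENNReal.tsum_add]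
  refine ENNReal.tsum_le_tsum fun i => ?_
  rw [hZ, k3, C.t.m_add (bd_co O _) ((bd_co O _).smul _), C.t.m_smul _ (bd_co O _), map_add,
    map_smul]
  refine (enorm_add_sq_le _ _).trans_eq ?_
  rw [enorm_smul, ← ofReal_norm Complex.I, Complex.norm_I, ENNReal.ofReal_one, one_mul]

end orb

/-- the defect of invariance -/
noncomputable def dL (S : Side μ W) (v : G) : (K →L[ℂ] K) →L[ℂ] (K →L[ℂ] K) :=
  mulLeftRight ℂ _ (S.π v) (S.π v⁻¹) - ContinuousLinearMap.id ℂ _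

theorem dL_apply (S : Side μ W) (v : G) (x : K →L[ℂ] K) : dL S v x = ad S.π v x - x := rfl

theorem ad_dL (C : Cpl μ μ' W) (v : G) (y : G') (x : K →L[ℂ] K) :
    ad C.t.π y (dL C.s v x) = dL C.s v (ad C.t.π y x) := by
  simp only [dL_apply, ad, mul_sub, sub_mul, mul_assoc, C.comm]
  simp only [← mul_assoc, C.comm]

theorem cm_dL (S : Side μ W) (v : G) {x : K →L[ℂ] K} (hx : Cm W x) : Cm W (dL S v x) :=
  cm_sub (S.conj x hx v) hx

/-- the approximate boundary maps -/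
structure Apx (h : R1 ρ w) (h' : R1 ρ' w') (C : Cpl μ μ' W) (m : Measure Ξ)
    (T : ℝ → Ξ → C(h'.Y, ℂ)) (b : ℝ≥0∞) (ε t : ℝ) (Φ : C(h'.Y, ℂ) →ₗ[ℂ] (K →L[ℂ] K)) : Prop where
  mem : t ∈ Icc (0 : ℝ) 1
  le : t ≤ ε
  cp : P092EN.Cp Φ
  nrm : ∀ f, ‖Φ f‖ ≤ 1 * ‖f‖
  cm : ∀ f, Cm W (Φ f)
  cov : ∀ x f, ad C.t.π x (Φ f) = Φ (tw h' t x f)
  one : ‖Φ 1 C.t.Ω - C.t.m (Pt h' t 1) C.t.Ω‖ ≤ ε
  en : ∀ v ∈ ball h 1, ∫⁻ ξ, C.t.Tr (dL C.s v (Φ (T t ξ)) * C.t.P (ball h' 1)) ∂m ≤ b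

theorem step (hU : UB C h h'.rr) (hA : A0 h' m T) :
    ∃ b : ℝ≥0∞, b ≠ ∞ ∧ ∀ ε > 0, ∃ t Φ, Apx h h' C m T b ε t Φ := by
  obtain ⟨c, hc, hE⟩ := hA.eq
  obtain ⟨c', D, Λ, hD, hO⟩ := hA.orb
  obtain ⟨C₀, h0, hU⟩ := hU c' D hD
  have hB : IsCompact (ball h' 1) := h'.isCompact_ball 1
  have hB' := hB.measure_lt_top (μ := μ')
  refine ⟨c * (μ' (ball h' 1) * (4 * ENNReal.ofReal (C₀ * 2) ^ 2 + ENNReal.ofReal (C₀ * 2) ^ 2)),
    by finiteness, fun ε hε => ?_⟩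
  obtain ⟨C₁, hU⟩ := hU (ε / (2 * (|Λ| + 1))) (by positivity)
  obtain ⟨t, ht, h1, h2⟩ : ∃ t ∈ Ioc (0 : ℝ) (1 / 4), t ≤ ε ∧ √t * |C₁| ≤ ε / 2 := by
    refine ⟨min (min (1 / 4) ε) ((ε / (2 * (|C₁| + 1))) ^ 2), ⟨by positivity,
      (min_le_left _ _).trans (min_le_left _ _)⟩, (min_le_left _ _).trans (min_le_right _ _), ?_⟩
    refine (mul_le_mul (Real.sqrt_le_iff.2 ⟨by positivity, min_le_right _ _⟩)
      (le_add_of_nonneg_right zero_le_one) (abs_nonneg _) (by positivity)).trans (le_of_eq ?_)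
    field_simp
  have ht' : t ∈ Icc (0 : ℝ) 1 := ⟨ht.1.le, ht.2.trans (by norm_num)⟩
  obtain ⟨O, ι, e, o1, o2, o3, o4⟩ := hO t ht
  obtain ⟨ν, _, -, u1, u2⟩ := hU _ O
  have n1 : ∀ f, ‖(Av C ν ∘ₗ mP h' C.t ht') f‖ ≤ 1 * ‖f‖ := fun f =>
    (norm_Av C ν _).trans ((norm_mP h' C.t ht' f).trans_eq (one_mul _).symm)
  have c1 : ∀ f, Cm W ((Av C ν ∘ₗ mP h' C.t ht') f) := fun f =>
    cm_Av C ν (C.t.cm_m (bd_Pt h' ht' f))
  have c2 : ∀ x f, ad C.t.π x ((Av C ν ∘ₗ mP h' C.t ht') f) =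
      (Av C ν ∘ₗ mP h' C.t ht') (tw h' t x f) := fun x f => by
    rw [LinearMap.comp_apply, LinearMap.comp_apply, ad_Av, ad_mP]
  refine ⟨t, _, ht', h1, cp_Av C ν (cp_mP h' C.t ht'), n1, c1, c2, ?_, fun v hv => ?_⟩
  · have k := hs_mass (C := C) O (L := (ContinuousLinearMap.apply ℂ K C.t.Ω).toLinearMap ∘ₗ
      (Av C ν - LinearMap.id)) (s := ε / (2 * (|Λ| + 1)) * (Λ / √t) + C₁) (fun J u hu => by
        refine le_of_eq_of_le (tsum_congr fun i => ?_) (u2 J u hu)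
        simp only [← Av_m]
        rfl) ht.1.le o3 o4
    have h3 := Real.sqrt_pos.2 ht.1
    refine (ENNReal.ofReal_le_ofReal_iff hε.le).1 ((ofReal_norm _).trans_le
      ((ENNReal.pow_le_pow_left_iff two_ne_zero).1 (k.trans ?_)))
    rw [← Real.sq_sqrt ht.1.le, ENNReal.ofReal_pow h3.le, Real.sq_sqrt ht.1.le, ← mul_pow,
      ← ENNReal.ofReal_mul h3.le]
    refine pow_le_pow_left' (ENNReal.ofReal_le_ofReal ?_) 2
    have h4 : ε / (2 * (|Λ| + 1)) * Λ ≤ ε / 2 :=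
      (mul_le_mul_of_nonneg_left ((le_abs_self Λ).trans (le_add_of_nonneg_right zero_le_one))
        (by positivity)).trans (le_of_eq (by field_simp))
    have h5 := mul_le_mul_of_nonneg_left (le_abs_self C₁) h3.le
    have h6 : √t * (ε / (2 * (|Λ| + 1)) * (Λ / √t) + C₁) = ε / (2 * (|Λ| + 1)) * Λ + √t * C₁ := by
      field_simp
    linarith
  · let Dv := dL C.s v ∘L (Av C ν ∘ₗ mP h' C.t ht').mkContinuous 1 n1
    have k : HSle (fun u => ((ContinuousLinearMap.apply ℂ K C.t.Ω ∘L dL C.s v).toLinearMap ∘ₗ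
        Av C ν) (C.t.m (O.co u))) (C₀ * 2) := fun J u hu => by
      refine le_of_eq_of_le (tsum_congr fun i => ?_) ((u1 v J u hu).trans (pow_le_pow_left'
        (ENNReal.ofReal_le_ofReal (mul_le_mul_of_nonneg_left ?_ h0)) 2))
      · simp only [← Av_m]
        rfl
      · linarith [show h.rr v ≤ 1 from hv]
    have ht0 : ENNReal.ofReal t ≠ 0 := (ENNReal.ofReal_pos.2 ht.1).ne'
    refine (window C hB.measurableSet Dv (fun f => cm_dL C.s v (c1 f))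
      (hA.cont.comp (Continuous.prodMk_right t)) (τ := tw h' t) (e := 1) hc
      (ENNReal.inv_ne_top.2 ht0) (fun g f => (ad_dL C v g _).trans (congrArg _ (c2 g f)))
      fun g Z => hE t ht g K Z).trans (mul_le_mul_right (mul_le_mul_right (add_le_add
        (hs_test O k hA.cont ht' o1 o2 (ContinuousLinearMap.apply ℂ K C.t.Ω ∘L Dv) fun _ => rfl)
        ?_) _) _)
    refine (mul_le_mul_right (hs_mass O k ht.1.le o3 o4) _).trans_eq ?_
    rw [← mul_assoc, ENNReal.inv_mul_cancel ht0 ENNReal.ofReal_ne_top, one_mul]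

theorem wl_var {ι V : Type} [NormedAddCommGroup V] [NormedSpace ℂ V] {l : Filter ι}
    {Φ : ι → V →ₗ[ℂ] (K →L[ℂ] K)} (hΦ : ∀ j f, ‖Φ j f‖ ≤ 1 * ‖f‖) {f : V} {X : K →L[ℂ] K}
    (hX : WLim l (fun j => Φ j f) X) {F : ι → V} (hF : Tendsto F l (𝓝 f)) :
    WLim l (fun j => Φ j (F j)) X := by
  refine hX.of_sub fun ξ η => ?_
  rw [zero_apply, inner_zero_right]
  have h1 := ((tendsto_iff_norm_sub_tendsto_zero.1 hF).mul_const ‖ξ‖).const_mul ‖η‖
  rw [zero_mul, mul_zero] at h1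
  refine squeeze_zero_norm (fun j => (norm_inner_le_norm _ _).trans ?_) h1
  simp only [← map_sub]
  exact mul_le_mul_of_nonneg_left ((le_opNorm _ _).trans (mul_le_mul_of_nonneg_right
    ((hΦ j _).trans_eq (one_mul _)) (norm_nonneg _))) (norm_nonneg _)

/-- **LIM**: the boundary map of finite energy -/
theorem lim (hU : UB C h h'.rr) (hA : A0 h' m T) : FEw h h' C m (T 0) := by
  obtain ⟨b, hb, hs⟩ := step hU hA
  choose t Φ H using fun j : ℕ => hs (1 / ((j : ℝ) + 1)) Nat.one_div_pos_of_nat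
  have h0 : Tendsto (fun j : ℕ => 1 / ((j : ℝ) + 1)) atTop (𝓝 0) :=
    tendsto_one_div_add_atTop_nhds_zero_nat
  have ht : Tendsto t atTop (𝓝 0) := squeeze_zero (fun j => (H j).mem.1) (fun j => (H j).le) h0
  let U : Ultrafilter ℕ := Ultrafilter.of atTop
  have hl : (U : Filter ℕ) ≤ atTop := Ultrafilter.of_le _
  obtain ⟨Ψ, hΨ⟩ := exists_wlim_lin U Φ fun f => ⟨_, fun j => (H j).nrm f⟩
  have n1 : ∀ f, ‖Ψ f‖ ≤ 1 * ‖f‖ := fun f =>
    (hΨ f).norm_le (by positivity) (Frequently.of_forall fun j => (H j).nrm f)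
  have c1 : ∀ f, Cm W (Ψ f) := fun f =>
    cm_of_weak (Eventually.of_forall fun j => (H j).cm f) (hΨ f)
  have c2 : P092EN.Cov C.t.π Ψ := fun x f f' e =>
    ((((hΨ f).mul_left _).mul_right _).congr fun j => (H j).cov x f).unique
      (wl_var (fun j => (H j).nrm) (hΨ f') (((tendsto_tw h' x e).comp ht).mono_left hl))
  have c3 : Ψ 1 = 1 := by
    refine C.eq_of_Ω ⟨c1 1, fun g => ?_⟩ C.t.M_one (ext_inner_left ℂ fun η => ?_)
    · conv_lhs => rw [← c2 g 1 1 fun _ => rfl, mul_assoc, pi_inv_mul, mul_one]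
    have k1 := C.t.tendsto_m (l := atTop) (fun j => meas_Pt h' (t j) 1)
      (fun j => norm_Pt h' (H j).mem 1) Bd.one
      (ae_of_all _ fun y => (tendsto_Pt h' y).comp ht) C.t.Ω
    have k2 := (squeeze_zero_norm (fun j => (H j).one) h0).add k1
    simp only [sub_add_cancel, zero_add, C.t.m_one] at k2
    exact tendsto_nhds_unique (hΨ 1 _ η) ((tendsto_const_nhds.inner k2).mono_left hl)
  have hB : MeasurableSet (ball h' 1) := (h'.isCompact_ball 1).measurableSet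
  refine ⟨Ψ, ⟨P092EN.Cp.lim (fun j => (H j).cp) hΨ, c3⟩, c1, c2, ne_top_of_le_ne_top ?_
    (setLIntegral_mono' (g := fun _ => b) (h.isCompact_ball 1).measurableSet fun v hv =>
      exh fun A hA' => ?_)⟩
  · rw [setLIntegral_const]
    exact ENNReal.mul_ne_top hb (h.isCompact_ball 1).measure_lt_top.ne
  have : IsFiniteMeasure (m.restrict A) := isFiniteMeasure_restrict.2 hA'.measure_lt_top.ne
  obtain ⟨a, ha⟩ := exists_bs (m := m) hA.cont hA'
  obtain ⟨I, e, -⟩ := exists_hilbertBasis ℂ (Lp ℂ 2 (m.restrict A))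
  refine (tr_pars C hB (dL C.s v ∘L Ψ.mkContinuous 1 n1) (fun f => cm_dL C.s v (c1 f))
    (ha 0 ⟨le_rfl, zero_le_one⟩) e).trans_le ?_
  rw [mul_comm, ← ENNReal.le_div_iff_mul_le (.inl C.t.vol_ne) (.inl C.t.vol)]
  refine tsum_le_of_weak (l := U) (u := fun j p => dL C.s v (Φ j (cf (e p.2) (T (t j))))
    (C.t.P (ball h' 1) (C.t.Om p.1))) (fun p η => ?_) (Frequently.of_forall fun j => ?_)
  · have k := wl_var (fun j => (H j).nrm) (hΨ _) ((tendsto_cf (T := T 0)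
      (fun j => ha _ (H j).mem) (fun ξ => ((hA.cont.comp (Continuous.prodMk_left ξ)).tendsto
        0).comp ht) (e p.2)).mono_left hl)
    exact (((k.mul_left _).mul_right _).sub k) _ η
  · rw [ENNReal.le_div_iff_mul_le (.inl C.t.vol_ne) (.inl C.t.vol), mul_comm]
    exact (tr_pars C hB (dL C.s v ∘L (Φ j).mkContinuous 1 (H j).nrm)
      (fun f => cm_dL C.s v ((H j).cm f)) (ha _ (H j).mem) e).symm.trans_le
      ((setLIntegral_le_lintegral _ _).trans ((H j).en v hv))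

end Vale.Agent.P092LM
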