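import Vale.Agent.P092LM.Defs
import Vale.Agent.P092RG.Vol

/-!
P092, rank one, block LIM (helper44): the twisted Poisson transform.
-/

set_option linter.all false

open scoped InnerProductSpace ENNReal NNReal ComplexConjugate
open Filter Topology MeasureTheory Set

namespace Vale.Agent.P092LM

open Vale.Agent.P092.H793.Re Vale.Agent.P092RG Vale.Agent.P092UB Vale.Agent.P092CP

variable {n : ℕ} {G : Type} [Group G] [TopologicalSpace G] {ρ : G →* SLn n} {w : Fin n → ℝ}

theorem abs_exp_sub {a b : ℝ} (h : |a| ≤ b) : |Real.exp a - 1| ≤ Real.exp b - 1 := by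
  obtain ⟨h1, h2⟩ := abs_le.1 h
  have h3 := Real.exp_le_exp.2 h2
  have h4 := Real.add_one_le_exp a
  have h5 := Real.add_one_le_exp b
  exact abs_le.2 ⟨by linarith, by linarith⟩

theorem tendsto_exp_sub (r c : ℝ) :
    Tendsto (fun t : ℝ => (Real.exp (|t| * r) - 1) * c) (𝓝 0) (𝓝 0) := by
  have h : Continuous fun t : ℝ => (Real.exp (|t| * r) - 1) * c := by fun_prop
  simpa using h.tendsto 0

variable (h : R1 ρ w)

theorem tw_apply (t : ℝ) (x : G) (f : C(h.Y, ℂ)) (η : h.Y) :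
    tw h t x f η = (Real.exp (-(t * h.co x⁻¹ η)) : ℝ) * f (x⁻¹ • η) := rfl

theorem tendsto_tw (x : G) {f f' : C(h.Y, ℂ)} (e : ∀ y, f' (x • y) = f y) :
    Tendsto (fun t => tw h t x f) (𝓝 0) (𝓝 f') := by
  refine tendsto_iff_norm_sub_tendsto_zero.2 (squeeze_zero (fun _ => norm_nonneg _) (fun t => ?_)
    (tendsto_exp_sub (h.rr x) ‖f‖))
  have h0 : 0 ≤ Real.exp (|t| * h.rr x) - 1 :=
    sub_nonneg.2 (Real.one_le_exp (mul_nonneg (abs_nonneg t) (h.rr_nonneg x)))
  refine (ContinuousMap.norm_le _ (by positivity)).2 fun η => ?_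
  have h1 : f' η = f (x⁻¹ • η) := by rw [← e, smul_inv_smul]
  rw [ContinuousMap.sub_apply, tw_apply, h1, ← sub_one_mul, norm_mul, ← Complex.ofReal_one,
    ← Complex.ofReal_sub, Complex.norm_real, Real.norm_eq_abs]
  refine mul_le_mul (abs_exp_sub ?_) (f.norm_coe_le_norm _) (norm_nonneg _) h0
  rw [abs_neg, abs_mul, ← h.rr_inv x]
  exact mul_le_mul_of_nonneg_left (h.abs_co_le _ _) (abs_nonneg t)

variable [IsTopologicalGroup G] [SecondCountableTopology G] [MeasurableSpace G] [BorelSpace G]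

theorem cont_wt (t : ℝ) : Continuous fun q : G × G => Real.exp (-(t * h.hs (q.1 * q.2))) :=
  Real.continuous_exp.comp (continuous_const.mul (h.continuous_hs.comp continuous_mul)).neg

theorem cont_in (t : ℝ) (f : C(h.Y, ℂ)) : Continuous fun q : G × G =>
    ((Real.exp (-(t * h.hs (q.1 * q.2))) : ℝ) : ℂ) * f ((q.1 * q.2 : G) : h.Y) :=
  (Complex.continuous_ofReal.comp (cont_wt h t)).mul
    (f.continuous.comp (QuotientGroup.continuous_mk.comp continuous_mul))

theorem ae_wt (t : ℝ) (y : G) : ∀ᵐ k ∂h.νK, |-(t * h.hs (y * k))| ≤ |t| * h.rr y :=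
  h.hpK.ae.mono fun k hk => by
    rw [abs_neg, abs_mul, ← h.rr_mul_K y hk]
    exact mul_le_mul_of_nonneg_left (h.abs_hs_le _) (abs_nonneg t)

theorem int_wt (t : ℝ) (y : G) : Integrable (fun k => Real.exp (-(t * h.hs (y * k)))) h.νK :=
  (integrable_const (Real.exp (|t| * h.rr y))).mono'
    ((cont_wt h t).comp (Continuous.prodMk_right y)).aestronglyMeasurable
    ((ae_wt h t y).mono fun k hk => by
      rw [Real.norm_eq_abs, abs_of_pos (Real.exp_pos _)]
      exact Real.exp_le_exp.2 ((le_abs_self _).trans hk))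

theorem norm_in (t : ℝ) (f : C(h.Y, ℂ)) (x : G) :
    ‖((Real.exp (-(t * h.hs x)) : ℝ) : ℂ) * f (x : h.Y)‖ ≤ Real.exp (-(t * h.hs x)) * ‖f‖ := by
  rw [norm_mul, Complex.norm_real, Real.norm_eq_abs, abs_of_pos (Real.exp_pos _)]
  exact mul_le_mul_of_nonneg_left (f.norm_coe_le_norm _) (Real.exp_pos _).le

theorem int_in (t : ℝ) (f : C(h.Y, ℂ)) (y : G) : Integrable (fun k =>
    ((Real.exp (-(t * h.hs (y * k))) : ℝ) : ℂ) * f ((y * k : G) : h.Y)) h.νK :=
  ((int_wt h t y).mul_const ‖f‖).mono'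
    ((cont_in h t f).comp (Continuous.prodMk_right y)).aestronglyMeasurable
    (ae_of_all _ fun k => norm_in h t f _)

theorem meas_Pt (t : ℝ) (f : C(h.Y, ℂ)) : Measurable (Pt h t f) :=
  (StronglyMeasurable.integral_prod_right' (ν := h.νK) (f := fun q : G × G =>
    ((Real.exp (-(t * h.hs (q.1 * q.2))) : ℝ) : ℂ) * f ((q.1 * q.2 : G) : h.Y))
    (cont_in h t f).measurable.stronglyMeasurable).measurable

theorem wt_le {t : ℝ} (ht : t ∈ Icc (0 : ℝ) 1) (y : G) :
    ∫ k, Real.exp (-(t * h.hs (y * k))) ∂h.νK ≤ 1 := by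
  have hQ := h.one_le_Q
  have h1 : ∫ k, Real.exp (-(h.Q * h.hs (y * k))) ∂h.νK = 1 := by
    rw [integral_eq_lintegral_of_nonneg_ae (ae_of_all _ fun k => (Real.exp_pos _).le)
      (int_wt h _ y).aestronglyMeasurable]
    exact (congrArg ENNReal.toReal (h.poisson y)).trans ENNReal.toReal_one
  have h2 : 0 ≤ t / h.Q := div_nonneg ht.1 (by linarith)
  have h3 : t / h.Q ≤ 1 := (div_le_one (by linarith)).2 (ht.2.trans hQ)
  have h4 : ∀ k, Real.exp (-(t * h.hs (y * k))) ≤
      t / h.Q * Real.exp (-(h.Q * h.hs (y * k))) + (1 - t / h.Q) := fun k => by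
    have h5 := convexOn_exp.2 (mem_univ (-(h.Q * h.hs (y * k)))) (mem_univ 0) h2
      (sub_nonneg.2 h3) (by ring)
    simp only [smul_eq_mul, mul_zero, add_zero, Real.exp_zero, mul_one] at h5
    refine le_trans (le_of_eq ?_) h5
    congr 1
    field_simp
  refine (integral_mono (int_wt h t y) (((int_wt h _ y).const_mul _).add (integrable_const _))
    h4).trans (le_of_eq ?_)
  change ∫ k, (t / h.Q * Real.exp (-(h.Q * h.hs (y * k))) + (1 - t / h.Q)) ∂h.νK = 1
  rw [integral_add ((int_wt h _ y).const_mul _) (integrable_const _), integral_const_mul, h1,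
    integral_const, probReal_univ, one_smul]
  ring

theorem norm_Pt' (t : ℝ) (f : C(h.Y, ℂ)) (y : G) :
    ‖Pt h t f y‖ ≤ (∫ k, Real.exp (-(t * h.hs (y * k))) ∂h.νK) * ‖f‖ := by
  rw [← integral_mul_const]
  exact norm_integral_le_of_norm_le ((int_wt h t y).mul_const _)
    (ae_of_all _ fun k => norm_in h t f _)

theorem norm_Pt {t : ℝ} (ht : t ∈ Icc (0 : ℝ) 1) (f : C(h.Y, ℂ)) (y : G) : ‖Pt h t f y‖ ≤ ‖f‖ :=
  (norm_Pt' h t f y).trans (mul_le_of_le_one_left (norm_nonneg _) (wt_le h ht y))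

theorem bd_Pt {t : ℝ} (ht : t ∈ Icc (0 : ℝ) 1) (f : C(h.Y, ℂ)) : Bd (Pt h t f) :=
  ⟨meas_Pt h t f, _, norm_Pt h ht f⟩

/-- the Poisson transform at a point, as a functional -/
noncomputable def PtL (t : ℝ) (y : G) : C(h.Y, ℂ) →L[ℂ] ℂ :=
  LinearMap.mkContinuous
    { toFun := fun f => Pt h t f y
      map_add' := fun f g => by
        rw [Pt, Pt, Pt, ← integral_add (int_in h t f y) (int_in h t g y)]
        exact integral_congr_ae (ae_of_all _ fun k => mul_add _ _ _)
      map_smul' := fun c f => by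
        rw [Pt, Pt, RingHom.id_apply, ← integral_smul]
        exact integral_congr_ae (ae_of_all _ fun k => mul_left_comm _ _ _) }
    _ fun f => norm_Pt' h t f y

theorem PtL_apply (t : ℝ) (y : G) (f : C(h.Y, ℂ)) : PtL h t y f = Pt h t f y := rfl

theorem Pt_add (t : ℝ) (f g : C(h.Y, ℂ)) : Pt h t (f + g) = Pt h t f + Pt h t g :=
  funext fun y => (PtL h t y).map_add f g

theorem Pt_smul (t : ℝ) (c : ℂ) (f : C(h.Y, ℂ)) : Pt h t (c • f) = c • Pt h t f :=
  funext fun y => (PtL h t y).map_smul c f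

theorem Pt_star (t : ℝ) (f : C(h.Y, ℂ)) : Pt h t (star f) = star (Pt h t f) := by
  funext y
  change _ = conj (Pt h t f y)
  rw [Pt, Pt, ← integral_conj]
  refine integral_congr_ae (ae_of_all _ fun k => ?_)
  simp only [map_mul, Complex.conj_ofReal]
  rfl

theorem Pt_one (t : ℝ) (y : G) : ((Pt h t 1 y).re : ℂ) = Pt h t 1 y := by
  have e := congrFun (Pt_star h t 1) y
  rw [star_one] at e
  exact Complex.conj_eq_iff_re.1 e.symm

theorem Pt_tw (t : ℝ) (x : G) (f : C(h.Y, ℂ)) (y : G) :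
    Pt h t (tw h t x f) y = Pt h t f (x⁻¹ * y) := by
  refine integral_congr_ae (ae_of_all _ fun k => ?_)
  simp only [tw_apply]
  rw [h.smul_mkY, h.co_mk, mul_assoc x⁻¹, h.hs_mul x⁻¹ (y * k), ← mul_assoc, ← Complex.ofReal_mul,
    ← Real.exp_add]
  congr 3
  ring

theorem tendsto_Pt (y : G) : Tendsto (fun t => Pt h t 1 y) (𝓝 0) (𝓝 1) := by
  refine tendsto_iff_norm_sub_tendsto_zero.2 (squeeze_zero (fun _ => norm_nonneg _) (fun t => ?_)
    (tendsto_exp_sub (h.rr y) 1))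
  have e : Pt h t 1 y - 1 = ∫ k, (((Real.exp (-(t * h.hs (y * k))) : ℝ) : ℂ) *
      (1 : C(h.Y, ℂ)) ((y * k : G) : h.Y) - 1) ∂h.νK := by
    rw [integral_sub (int_in h t 1 y) (integrable_const _), integral_const, probReal_univ, one_smul]
    rfl
  rw [e]
  refine (norm_integral_le_of_norm_le_const ((ae_wt h t y).mono fun k hk => ?_)).trans_eq
    (by rw [probReal_univ])
  rw [ContinuousMap.one_apply, mul_one, ← Complex.ofReal_one, ← Complex.ofReal_sub,
    Complex.norm_real, Real.norm_eq_abs]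
  exact abs_exp_sub hk

theorem Pt_pos (t : ℝ) (y : G) {N : ℕ} (f : Fin N → C(h.Y, ℂ)) {E : Type} [NormedAddCommGroup E]
    [InnerProductSpace ℂ E] (u : Fin N → E) :
    0 ≤ (∑ i, ∑ j, Pt h t (star (f i) * f j) y * ⟪u i, u j⟫_ℂ).re := by
  have h1 : ∀ i j, Integrable (fun k => ((Real.exp (-(t * h.hs (y * k))) : ℝ) : ℂ) *
      (star (f i) * f j) ((y * k : G) : h.Y) * ⟪u i, u j⟫_ℂ) h.νK := fun i j =>
    (int_in h t _ y).mul_const _
  simp only [Pt, ← integral_mul_const]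
  simp only [← integral_finset_sum _ fun j _ => h1 _ j]
  have h2 := fun i => integrable_finset_sum Finset.univ fun j _ => h1 i j
  have h3 := integral_re (integrable_finset_sum Finset.univ fun i _ => h2 i)
  rw [← integral_finset_sum _ fun i _ => h2 i]
  refine le_of_le_of_eq (integral_nonneg fun k => ?_) h3
  have e : ∑ i, ∑ j, ((Real.exp (-(t * h.hs (y * k))) : ℝ) : ℂ) *
      (star (f i) * f j) ((y * k : G) : h.Y) * ⟪u i, u j⟫_ℂ =
      ((Real.exp (-(t * h.hs (y * k))) : ℝ) : ℂ) * ⟪∑ i, f i ((y * k : G) : h.Y) • u i,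
        ∑ i, f i ((y * k : G) : h.Y) • u i⟫_ℂ := by
    rw [sum_inner, Finset.mul_sum]
    refine Finset.sum_congr rfl fun i _ => ?_
    rw [inner_sum, Finset.mul_sum]
    refine Finset.sum_congr rfl fun j _ => ?_
    rw [inner_smul_left, inner_smul_right, mul_assoc, ← mul_assoc (conj _)]
    rfl
  change 0 ≤ Complex.re _
  rw [e, Complex.re_ofReal_mul]
  exact mul_nonneg (Real.exp_pos _).le (inner_self_nonneg (𝕜 := ℂ))

end Vale.Agent.P092LM
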